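import Vale.Agent.P116.Ms.EN7

/-!
# The inverse of the Koebe map of a structure as a transition map
-/

open Set Filter Topology Metric Bornology MeasureTheory

namespace Vale.Agent.P116.KB.E3

open H906 PBC Slow Ms

variable {S : Set (Set ℂ)} {f : ℂ → ℂ} {c : Set ℂ → ℂ} {r : Set ℂ → ℝ}

/-- the inverse of the Koebe map maps the complement of the disks onto the complement of the
pieces -/
theorem ep_self (hS : Adm S) (h : CMap S f c r) {R : ℝ} (hR : 0 < R)
    (hSR : ∀ P ∈ S, P ⊆ ball 0 R) {n : ℕ} (e : Fin n ≃ S) :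
    EP (fun j => c (e j).1) (fun j => r (e j).1) (fun j => (e j).1)
      (Function.invFunOn f (⋃₀ S)ᶜ) (5 * R) := by
  classical
  have hU : (⋃ j, closedBall (c (e j).1) (r (e j).1)) = ⋃ P ∈ S, closedBall (c P) (r P) := by
    ext z
    simp only [mem_iUnion]
    constructor
    · rintro ⟨j, hj⟩
      exact ⟨(e j).1, (e j).2, hj⟩
    · rintro ⟨P, hP, hz⟩
      refine ⟨e.symm ⟨P, hP⟩, ?_⟩
      rw [e.apply_symm_apply]
      exact hz
  have hUo : (⋃ j, closedBall (c (e j).1) (r (e j).1))ᶜ = Od7 S c r := by rw [hU]; rfl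
  have hLU : (⋃ j, (e j).1 : Set ℂ) = ⋃₀ S := by
    ext z
    simp only [mem_iUnion, mem_sUnion]
    constructor
    · rintro ⟨j, hj⟩
      exact ⟨(e j).1, (e j).2, hj⟩
    · rintro ⟨P, hP, hz⟩
      refine ⟨e.symm ⟨P, hP⟩, ?_⟩
      rw [e.apply_symm_apply]
      exact hz
  refine
    { pos := by positivity
      rpos := fun j => h.rpos _ (e j).2
      disj := fun i j hij => h.disj _ (e i).2 _ (e j).2 fun he => hij (e.injective (Subtype.ext he))
      sub := fun j => disk_bound hS h hR hSR (e j).2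
      Lc := fun j => hS.cpt _ (e j).2
      Lne := fun j => (hS.conn _ (e j).2).nonempty
      Ldisj := fun i j hij => hS.disj _ (e i).2 _ (e j).2
        fun he => hij (e.injective (Subtype.ext he))
      diff := ?_
      inj := ?_
      image := ?_
      norm := ?_
      bdry := fun j ε hε => ?_ }
  · rw [hUo]
    have := inv_diff hS.isOpen_compl h.nu.diff h.nu.inj
    rw [h.image] at this
    exact this
  · rw [hUo]
    intro z hz z' hz' hzz
    rw [← (inv_mem h hz).2, ← (inv_mem h hz').2, hzz]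
  · rw [hUo, hLU]
    apply Subset.antisymm
    · rintro _ ⟨z, hz, rfl⟩
      exact (inv_mem h hz).1
    · intro x hx
      exact ⟨f x, (inv_f h hx).1, (inv_f h hx).2⟩
  · have h3 := inv_inf hS h
    have h5 : Tendsto (fun z => f (Function.invFunOn f (⋃₀ S)ᶜ z) -
        Function.invFunOn f (⋃₀ S)ᶜ z) (cobounded ℂ) (𝓝 0) := h.nu.norm.comp h3
    have h6 := h5.neg
    rw [neg_zero] at h6
    refine Tendsto.congr' ?_ h6
    filter_upwards [od_cob (c := c) (r := r) hS] with z hz
    rw [(inv_mem h hz).2]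
    ring
  · by_contra hcon
    push Not at hcon
    set bad : Set ℂ := {z | z ∉ ⋃ j, closedBall (c (e j).1) (r (e j).1) ∧
      ε ≤ infDist (Function.invFunOn f (⋃₀ S)ᶜ z) (e j).1} with hbad
    set P := (e j).1 with hPdef
    have hPS : P ∈ S := (e j).2
    have hne : (closedBall (c P) (r P)).Nonempty := ⟨c P, mem_closedBall_self (h.rpos P hPS).le⟩
    have hNB : (comap (fun z => infDist z (closedBall (c P) (r P))) (𝓝 0) ⊓ 𝓟 bad).NeBot := by
      rw [inf_principal_neBot_iff]
      intro t ht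
      obtain ⟨v, hv, hvt⟩ := ht
      obtain ⟨δ, hδ, hδv⟩ := Metric.mem_nhds_iff.1 hv
      obtain ⟨z, hz1, hz2, hz3⟩ := hcon δ hδ
      refine ⟨z, hvt ?_, hz1, hz3⟩
      refine hδv ?_
      rw [mem_ball, dist_zero_right, Real.norm_of_nonneg infDist_nonneg]
      exact hz2
    obtain ⟨𝒱, h𝒱⟩ := (Filter.exists_ultrafilter_iff).2 hNB
    obtain ⟨hV1, hV2⟩ := le_inf_iff.1 h𝒱
    rw [le_principal_iff] at hV2
    have hdist : Tendsto (fun z => infDist z (closedBall (c P) (r P))) (𝒱 : Filter ℂ) (𝓝 0) :=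
      tendsto_iff_comap.2 hV1
    have hmemO : ∀ᶠ z in (𝒱 : Filter ℂ), z ∈ Od7 S c r := by
      filter_upwards [hV2] with z hz
      rw [← hUo]; exact hz.1
    have hbd : closedBall (c P) (r P + 1) ∈ (𝒱 : Filter ℂ) := by
      filter_upwards [hdist.eventually (gt_mem_nhds one_pos)] with w hw
      obtain ⟨y, hy, hy2⟩ := (infDist_lt_iff hne).1 hw
      rw [mem_closedBall] at hy ⊢
      have := dist_triangle w y (c P)
      linarith
    obtain ⟨z₀, -, hz₀⟩ := (isCompact_closedBall (c P) (r P + 1)).ultrafilter_le_nhds 𝒱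
      (le_principal_iff.2 hbd)
    have hz₀P : z₀ ∈ closedBall (c P) (r P) := by
      have h3 : Tendsto (fun w => infDist w (closedBall (c P) (r P))) (𝒱 : Filter ℂ)
          (𝓝 (infDist z₀ (closedBall (c P) (r P)))) :=
        ((continuous_infDist_pt _).tendsto z₀).mono_left hz₀
      exact (isClosed_closedBall.mem_iff_infDist_zero (x := z₀) hne).2
        (tendsto_nhds_unique h3 hdist)
    set g := Function.invFunOn f (⋃₀ S)ᶜ with hg
    have hgz : ∀ᶠ z in (𝒱 : Filter ℂ), g z ∈ (⋃₀ S)ᶜ := by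
      filter_upwards [hmemO] with z hz using (inv_mem h hz).1
    have hfg : Tendsto (fun z => f (g z)) (𝒱 : Filter ℂ) (𝓝 z₀) := by
      refine Tendsto.congr' ?_ (show Tendsto (fun z : ℂ => z) (𝒱 : Filter ℂ) (𝓝 z₀) from hz₀)
      filter_upwards [hmemO] with z hz using (inv_mem h hz).2.symm
    obtain ⟨x₀, hx₀, hcase⟩ := h.corr hS 𝒱 hgz hfg
    have hx₀P : x₀ ∈ P := by
      rcases hcase with ⟨hx1, hx2⟩ | ⟨Q, hQ, hx1, hx2⟩
      · exact absurd (hx2 ▸ hz₀P) (h.notMem hx1 hPS)
      · have : Q = P := by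
          by_contra hQP
          exact disjoint_left.1 (h.disj Q hQ P hPS hQP) hx2 hz₀P
        exact this ▸ hx1
    have hfin : Tendsto (fun z => infDist (g z) P) (𝒱 : Filter ℂ) (𝓝 0) := by
      have h3 : Tendsto (fun z => infDist (g z) P) (𝒱 : Filter ℂ) (𝓝 (infDist x₀ P)) :=
        ((continuous_infDist_pt _).tendsto _).comp hx₀
      rwa [infDist_zero_of_mem hx₀P] at h3
    obtain ⟨z, hz1, hz2⟩ := ((hfin.eventually (gt_mem_nhds hε)).and
      (show ∀ᶠ z in (𝒱 : Filter ℂ), z ∈ bad from hV2)).exists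
    exact absurd hz2.2 (not_le.2 hz1)

end Vale.Agent.P116.KB.E3
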