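import Vale.Agent.P116.KB.E3.Near
import Vale.Agent.P116.KB.E3.EPS

/-!
# The circumradius principle for one structure
-/

open Set Filter Topology Metric Bornology MeasureTheory

namespace Vale.Agent.P116.KB.E3

open H906 PBC Cl

variable {K : Set ℂ}

lemma sum_equiv_finsum {α : Type*} {T : Set α} {n : ℕ} (e : Fin n ≃ T) (f : α → ℝ) :
    ∑ j, f (e j).1 = ∑ᶠ a ∈ T, f a := by
  classical
  have : Fintype T := Fintype.ofEquiv _ e
  rw [← finsum_set_coe_eq_finsum_mem T, finsum_eq_sum_of_fintype]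
  exact Equiv.sum_comp e (fun a : T => f a.1)

/-- **one structure, one test map** -/
theorem lb_core (hE : E0) (hK : IsCompact K) (hf : Full K) {T : Set (Set ℂ)}
    (hT : G.NS K (lev K 0) T) (hcov : K ⊆ ⋃₀ T) {f W : ℂ → ℂ} {ρ : ℂ → ℝ}
    (hfd : DifferentiableOn ℂ f Kᶜ) (hfi : Tendsto (fun z => f z - z) (cobounded ℂ) (𝓝 0))
    (hWc : ContinuousOn W Kᶜ) (hWf : ∀ z ∉ lev K 0, W z = f z)
    (hre : Maj Kᶜ (fun z => (W z).re) ρ) (him : Maj Kᶜ (fun z => (W z).im) ρ)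
    {R₀ : ℝ} (hR₀ : 0 < R₀) (hlev : lev K 0 ⊆ closedBall 0 R₀) {χ : ℂ → ℝ} (hχ : Cf R₀ χ)
    (hint : IntegrableOn (fun z => χ z * ρ z ^ 2) Kᶜ) {p : Set ℂ → ℂ} {M : Set ℂ → ℝ}
    (hM0 : ∀ P ∈ T, 0 ≤ M P) (hM : ∀ P ∈ T, ∀ y ∈ frontier P, ‖W y - p P‖ ≤ M P) :
    ar χ f f ≤ enr Kᶜ χ ρ + Real.pi * ∑ᶠ P ∈ T, M P ^ 2 := by
  classical
  have hA : Adm T := G.ns_adm hK hf hT
  have : Finite T := hT.fin.to_subtype
  set e : Fin (Nat.card T) ≃ T := (Finite.equivFin T).symm with he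
  have hTR : ∀ P ∈ T, P ⊆ ball (0:ℂ) (R₀ + 1) := fun P hP =>
    ((hT.sub P hP).trans hlev).trans (closedBall_subset_ball (by linarith))
  have hEP := ep_self hA (kmap fk ⟨T, hA⟩) (show 0 < R₀ + 1 by linarith) hTR e
  have hU : (⋃ j, (e j).1 : Set ℂ) = ⋃₀ T := by
    ext z
    simp only [mem_iUnion, mem_sUnion]
    constructor
    · rintro ⟨j, hj⟩
      exact ⟨(e j).1, (e j).2, hj⟩
    · rintro ⟨P, hP, hz⟩
      refine ⟨e.symm ⟨P, hP⟩, ?_⟩
      rw [e.apply_symm_apply]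
      exact hz
  have hsub : (⋃ j, (e j).1 : Set ℂ)ᶜ ⊆ Kᶜ := by
    rw [hU]
    exact compl_subset_compl.2 hcov
  have hfar : {z : ℂ | R₀ < ‖z‖} ⊆ (lev K 0)ᶜ := by
    intro z hz hzl
    have := hlev hzl
    rw [mem_closedBall, dist_zero_right] at this
    exact absurd hz (not_lt.2 this)
  have hfarK : {z : ℂ | R₀ < ‖z‖} ⊆ Kᶜ := fun z hz hzK => hfar hz (subset_lev 0 hzK)
  have key := hE hEP hR₀ (fun j => (hT.sub _ (e j).2).trans hlev) (Maj.mono' hre hsub)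
    (Maj.mono' him hsub) (g := f) (hfd.mono hfarK) hfi
    (fun z hz => by
      rw [← hWf z (hfar hz)]
      exact (Complex.re_add_im (W z)).symm)
    (p := fun j => p (e j).1) (M := fun j => M (e j).1) (fun j => hM0 _ (e j).2)
    (fun j ε hε => by
      have hPc := hT.pc _ (e j).2
      obtain ⟨t, ht, h1⟩ := near_piece hK.isClosed hPc.cpt hPc.nonempty hPc.fr hWc
        (hM _ (e j).2) hε
      refine ⟨t, ht, fun z hz hzt => ?_⟩
      rw [Complex.re_add_im]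
      exact h1 z (fun hzP => hz (mem_iUnion.2 ⟨j, hzP⟩)) hzt)
    hχ (hint.mono_set hsub)
  refine key.trans ?_
  rw [← sum_equiv_finsum e (fun P => M P ^ 2)]
  refine add_le_add ?_ le_rfl
  unfold enr
  refine setIntegral_mono_set hint ?_ hsub.eventuallyLE
  exact Eventually.of_forall fun z => mul_nonneg (hχ.nn z) (sq_nonneg _)

end Vale.Agent.P116.KB.E3
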