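import Vale.Agent.P116.KB.End
import Vale.Agent.P116.Cl.Fr905

/-!
# Values near a piece, and elementary facts for the lower bound
-/

open Set Filter Topology Metric Bornology MeasureTheory

namespace Vale.Agent.P116.KB.E3

open H906 PBC Cl

variable {K P : Set ℂ}

/-- a segment from a point outside a set to a point of the set meets the frontier -/
lemma exists_frontier_seg {P : Set ℂ} {z y : ℂ} (hz : z ∉ P) (hy : y ∈ P) :
    ∃ y' ∈ frontier P, dist z y' ≤ dist z y := by
  have h1 : IsPreconnected (segment ℝ z y) := (convex_segment z y).isPreconnected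
  by_contra hcon
  push Not at hcon
  have h2 : (segment ℝ z y ∩ frontier P) = ∅ := by
    rw [eq_empty_iff_forall_notMem]
    rintro w ⟨hw, hwP⟩
    have h3 := hcon w hwP
    have h4 : dist z w ≤ dist z y := by
      obtain ⟨a, b, ha, hb, hab, rfl⟩ := hw
      have e : z - (a • z + b • y) = b • (z - y) := by
        have : a = 1 - b := by linarith
        rw [this]; module
      rw [dist_eq_norm, dist_eq_norm, e, norm_smul, Real.norm_of_nonneg hb]
      exact mul_le_of_le_one_left (norm_nonneg _) (by linarith)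
    linarith
  have h5 : segment ℝ z y ⊆ interior P ∪ interior Pᶜ := by
    intro w hw
    by_contra hcon
    rw [mem_union, not_or] at hcon
    have : w ∈ frontier P := by
      rw [frontier_eq_closure_inter_closure]
      rw [interior_compl, mem_compl_iff, not_not] at hcon
      refine ⟨hcon.2, ?_⟩
      rw [closure_compl]
      exact hcon.1
    have h6 : w ∈ segment ℝ z y ∩ frontier P := ⟨hw, this⟩
    rw [h2] at h6
    exact h6
  have h6 := h1 _ _ isOpen_interior isOpen_interior h5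
  have hyi : y ∈ interior P := by
    rcases h5 (right_mem_segment ℝ z y) with h | h
    · exact h
    · exact absurd hy (interior_subset h)
  have hzi : z ∈ interior Pᶜ := by
    rcases h5 (left_mem_segment ℝ z y) with h | h
    · exact absurd (interior_subset h) hz
    · exact h
  obtain ⟨w, -, hw1, hw2⟩ := h6 ⟨y, right_mem_segment ℝ z y, hyi⟩ ⟨z, left_mem_segment ℝ z y, hzi⟩
  exact (interior_subset hw2) (interior_subset hw1)

/-- values near a piece are controlled by the values on the frontier -/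
lemma near_piece (hK : IsClosed K) (hP : IsCompact P) (hne : P.Nonempty)
    (hfr : Disjoint (frontier P) K) {W : ℂ → ℂ} (hW : ContinuousOn W Kᶜ) {p : ℂ} {M : ℝ}
    (hM : ∀ y ∈ frontier P, ‖W y - p‖ ≤ M) {ε : ℝ} (hε : 0 < ε) :
    ∃ t > 0, ∀ z, z ∉ P → infDist z P < t → ‖W z - p‖ ≤ M + ε := by
  have hfc : IsCompact (frontier P) :=
    hP.of_isClosed_subset isClosed_frontier hP.isClosed.frontier_subset
  have h1 := hfc.uniformContinuousAt_of_continuousAt W (fun y hy =>
    hW.continuousAt (hK.isOpen_compl.mem_nhds (disjoint_left.1 hfr hy))) (dist_mem_uniformity hε)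
  obtain ⟨t, ht, ht2⟩ := Metric.mem_uniformity_dist.1 h1
  refine ⟨t, ht, fun z hz hzt => ?_⟩
  obtain ⟨y, hy, hyz⟩ := (infDist_lt_iff hne).1 hzt
  obtain ⟨y', hy', hyz'⟩ := exists_frontier_seg hz hy
  have h2 : dist (W y') (W z) < ε := ht2 (by rw [dist_comm]; linarith) hy'
  have h3 := hM y' hy'
  rw [dist_eq_norm] at h2
  have h4 : ‖W z - p‖ ≤ ‖W y' - W z‖ + ‖W y' - p‖ := by
    have := norm_sub_le (W y' - p) (W y' - W z)
    rw [show W y' - p - (W y' - W z) = W z - p by ring] at this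
    linarith
  linarith

/-- the middle of the values -/
noncomputable def mid (K : Set ℂ) (u : ℂ → ℝ) (A : Set ℂ) : ℝ :=
  (sSup (u '' (A \ K)) + sInf (u '' (A \ K))) / 2

lemma abs_sub_mid {u : ℂ → ℝ} {A : Set ℂ} (h1 : BddAbove (u '' (A \ K)))
    (h2 : BddBelow (u '' (A \ K))) {y : ℂ} (hy : y ∈ A) (hyK : y ∉ K) :
    |u y - mid K u A| ≤ oscE K u A / 2 := by
  have h3 := le_csSup h1 (mem_image_of_mem u ⟨hy, hyK⟩)
  have h4 := csInf_le h2 (mem_image_of_mem u ⟨hy, hyK⟩)
  unfold mid oscE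
  rw [abs_le]
  constructor <;> linarith

lemma norm_sub_mid {W : ℂ → ℂ} {A : Set ℂ} (h1 : BddAbove ((fun z => (W z).re) '' (A \ K)))
    (h2 : BddBelow ((fun z => (W z).re) '' (A \ K))) (h3 : BddAbove ((fun z => (W z).im) '' (A \ K)))
    (h4 : BddBelow ((fun z => (W z).im) '' (A \ K))) {y : ℂ} (hy : y ∈ A) (hyK : y ∉ K) :
    ‖W y - ⟨mid K (fun z => (W z).re) A, mid K (fun z => (W z).im) A⟩‖ ≤
      Real.sqrt (oscE K (fun z => (W z).re) A ^ 2 + oscE K (fun z => (W z).im) A ^ 2) / 2 := by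
  have h5 := abs_sub_mid h1 h2 hy hyK
  have h6 := abs_sub_mid h3 h4 hy hyK
  set a := oscE K (fun z => (W z).re) A
  set b := oscE K (fun z => (W z).im) A
  have e : Real.sqrt (a ^ 2 + b ^ 2) / 2 = Real.sqrt ((a / 2) ^ 2 + (b / 2) ^ 2) := by
    rw [show (a / 2) ^ 2 + (b / 2) ^ 2 = (a ^ 2 + b ^ 2) / 2 ^ 2 by ring, Real.sqrt_div' _ (by norm_num),
      Real.sqrt_sq (by norm_num)]
  rw [e, Complex.norm_def, Complex.normSq_apply]
  apply Real.sqrt_le_sqrt
  simp only [Complex.sub_re, Complex.sub_im]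
  have h7 := sq_le_sq' (neg_le_of_abs_le h5) (le_of_abs_le h5)
  have h8 := sq_le_sq' (neg_le_of_abs_le h6) (le_of_abs_le h6)
  nlinarith

/-- off the nodes of level `k` and on their frontiers the test map is the map itself -/
lemma eq_on_frontier (hK : IsCompact K) {W f : ℂ → ℂ} (hW : ContinuousOn W Kᶜ)
    (hf : ContinuousOn f Kᶜ) {k : ℕ} (hWf : ∀ z ∉ lev K k, W z = f z) {x : ℂ} {y : ℂ}
    (hy : y ∈ frontier (nd K k x)) : W y = f y := by
  have hyK : y ∉ K := disjoint_left.1 (frontier_nd_disjoint k x) hy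
  have h1 : y ∈ closure (lev K k)ᶜ := by
    have := frontier_nd_subset hK k x hy
    rw [frontier_eq_closure_inter_closure] at this
    exact this.2
  have : (𝓝[(lev K k)ᶜ] y).NeBot := mem_closure_iff_nhdsWithin_neBot.1 h1
  have hn : Kᶜ ∈ 𝓝 y := hK.isClosed.isOpen_compl.mem_nhds hyK
  have h2 : Tendsto W (𝓝[(lev K k)ᶜ] y) (𝓝 (W y)) :=
    (hW.continuousAt hn).tendsto.mono_left nhdsWithin_le_nhds
  have h3 : Tendsto f (𝓝[(lev K k)ᶜ] y) (𝓝 (f y)) :=
    (hf.continuousAt hn).tendsto.mono_left nhdsWithin_le_nhds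
  have h4 : Tendsto W (𝓝[(lev K k)ᶜ] y) (𝓝 (f y)) :=
    h3.congr' (eventually_nhdsWithin_of_forall fun z hz => (hWf z hz).symm)
  exact tendsto_nhds_unique h2 h4

lemma Maj.mono' {G G' : Set ℂ} {u ρ : ℂ → ℝ} (h : Maj G u ρ) (hG : G' ⊆ G) : Maj G' u ρ where
  cont := h.cont.mono hG
  nn z hz := h.nn z (hG hz)
  lip a ha := h.lip a (hG ha)

/-- different components lie in different nodes of deep levels -/
lemma exists_nd_ne (hK : IsCompact K) (hf : Full K) {x y : ℂ} (hx : x ∈ K) (hy : y ∈ K)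
    (hne : connectedComponentIn K x ≠ connectedComponentIn K y) :
    ∃ n, ∀ m ≥ n, nd K m x ≠ nd K m y := by
  by_contra hcon
  push Not at hcon
  have h1 : ∀ n, y ∈ nd K n x := by
    intro n
    obtain ⟨m, hm, he⟩ := hcon n
    exact nd_anti hm (he ▸ mem_nd hy m)
  have h2 : y ∈ connectedComponentIn K x := by
    rw [← iInter_nd hK hf hx]
    exact mem_iInter.2 h1
  exact hne (connectedComponentIn_eq h2)

end Vale.Agent.P116.KB.E3
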